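import Vale.Agent.P242W.Defs
import Vale.Agent.P233Z.Defs

/-!
# P242: a weak form of `RCD(K,N)`
-/

open MeasureTheory
open scoped ENNReal

universe u

namespace Vale.Agent.P242X

/-- As `P242W.IsRCD`, but `X` is not assumed geodesic and `CD(K,N)` is replaced by the weak form
`IsCDb` of the reduced condition (coefficients `σ ≤ τ`, only the exponent `N`, only marginals with
compact support and bounded density). -/
structure IsRCDs {X : Type u} [MetricSpace X] [MeasurableSpace X]
    (U : Measure X → (X → ℝ) → (X → ℝ) → Prop) (m : Measure X) (K N : ℝ) : Prop where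
  full : m.IsOpenPosMeasure
  fin : ∀ B, Bornology.IsBounded B → m B < ∞
  cd : P233Z.IsCDb K N m
  quadratic : ∀ f g, MemLp f 2 m → MemLp g 2 m →
    P242W.Ch U m (f + g) + P242W.Ch U m (f - g) = 2 * P242W.Ch U m f + 2 * P242W.Ch U m g

end Vale.Agent.P242X
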