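import Vale.Agent.P242X.Defs
import Vale.Agent.P242W.AGS
import Vale.Agent.P242W47.Spl
import Vale.Agent.P242W47.Spm
import Vale.Agent.P242W55.Ugl
import Vale.Agent.P242W72.Rows
import Vale.Agent.P242W76.New1

/-!
# P242X: from the weak form of `RCD(K,N)` to the relaxed slope form
-/

open MeasureTheory Set Filter Topology unitInterval
open scoped ENNReal NNReal

universe u

namespace Vale.Agent.P242X

open P242W

variable {X : Type u} [MetricSpace X] [MeasurableSpace X] [BorelSpace X]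
  {U : Measure X → (X → ℝ) → (X → ℝ) → Prop} {m : Measure X}

theorem IsRCDs.rcdb (hU : ∀ f G, U m f G ↔ P233.T.IsRelaxedSlope m f G) {K N : ℝ}
    (h : IsRCDs U m K N) (p : X) : P233Z.IsRCDb m K N := by
  refine ⟨⟨p⟩, fun x r => h.fin _ Metric.isBounded_ball, h.cd, ?_⟩
  rintro f g ⟨F, hF⟩ ⟨G, hG⟩
  have hf : P233.Met.W12 m f := ⟨F, hF⟩
  have hg : P233.Met.W12 m g := ⟨G, hG⟩
  obtain ⟨A, hA⟩ := hf.add hg
  obtain ⟨B, hB⟩ := hf.sub hg
  have q := h.quadratic f g hF.1 hG.1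
  rw [ch_eq hU (relaxed_iff.2 hA), ch_eq hU (relaxed_iff.2 hB), ch_eq hU hF, ch_eq hU hG] at q
  have i : ∀ {a A : X → ℝ}, P233.T.IsRelaxedSlope m a A →
      Integrable (fun x => P233.T.slope m a x ^ 2) m :=
    fun ha => MemLp.integrable_sq (isMinSlope_slope ha).1.2.1
  have n : ∀ a : X → ℝ, 0 ≤ ∫ x, P233.T.slope m a x ^ 2 ∂m :=
    fun a => integral_nonneg fun x => sq_nonneg _
  have e1 := integral_add (i (relaxed_iff.2 hA)) (i (relaxed_iff.2 hB))
  have e2 := integral_add ((i hF).const_mul 2) ((i hG).const_mul 2)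
  rw [integral_const_mul, integral_const_mul] at e2
  refine e1.trans (Eq.trans ?_ e2.symm)
  have q' := congrArg ENNReal.toReal q
  rw [ENNReal.toReal_add (by finiteness) (by finiteness),
    ENNReal.toReal_add (by finiteness) (by finiteness)] at q'
  simp only [ENNReal.toReal_mul, ENNReal.toReal_inv, ENNReal.toReal_ofNat,
    ENNReal.toReal_ofReal (n _)] at q'
  linarith

theorem unscale {c : ℝ≥0} (hc : c ≠ 0)
    (hU : (∀ B, Bornology.IsBounded B → (c • m) B < ∞) →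
      ∀ f G, U (c • m) f G ↔ P233.T.IsRelaxedSlope (c • m) f G) {K N : ℝ} (hN : 1 < N)
    (h : IsRCD U (c • m) K N ∨ IsRCDs U (c • m) K N) (p : X) :
    m.IsOpenPosMeasure ∧ P233Z.IsRCDb m K N := by
  have h0 : (c • m).IsOpenPosMeasure ∧ P233Z.IsRCDb (c • m) K N := by
    rcases h with h | h
    · exact ⟨h.full, P233Z.isRCDb_of hN (h.cd_rcd (hU h.fin) p)⟩
    · exact ⟨h.full, h.rcdb (hU h.fin) p⟩
  have h1 := h0.2.smul (inv_ne_zero hc)
  have h2 := P233Z.full_smul (inv_ne_zero hc) h0.1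
  rw [P233Z.inv_smul_smul_measure hc] at h1 h2
  exact ⟨h2, h1⟩

theorem ags (X : Type u) [MetricSpace X] [CompleteSpace X] [SecondCountableTopology X]
    [MeasurableSpace X] [BorelSpace X] [MeasurableSpace C(I, X)] [BorelSpace C(I, X)]
    (U : Measure X → (X → ℝ) → (X → ℝ) → Prop)
    (hU : U ∈ ({IsWeakUG, IsIntUG, IsNewtonUG} : Set (Measure X → (X → ℝ) → (X → ℝ) → Prop)))
    (m : Measure X) (hm : ∀ B, Bornology.IsBounded B → m B < ∞) (f G : X → ℝ) :
    (U m f G ↔ P233.T.IsRelaxedSlope m f G) ∧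
      (U m f G → ∃ S, IsMin U m f S ∧ P233.T.IsMinSlope m f S ∧
        (∀ S', IsMin U m f S' → S' =ᵐ[m] S) ∧ Ch U m f = 2⁻¹ * ∫⁻ x, ‖S x‖ₑ ^ 2 ∂m) := by
  have A := all_iff (U := U) (m := m)
    (P242W76.new1 P242W55.ugl P242W47.spm1) (P242W72.new2 X) (hard_side X) hU hm
  refine ⟨A f G, fun h => ?_⟩
  obtain ⟨h1, h2⟩ := min_slope A h
  refine ⟨_, h1, (isMin_iff A _ _).1 h1, h2, ?_⟩
  refine le_antisymm (iInf₂_le _ h1) (le_iInf₂ fun S hS => le_of_eq ?_)
  congr 1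
  refine lintegral_congr_ae ?_
  filter_upwards [h2 S hS] with x hx
  rw [hx]

end Vale.Agent.P242X
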