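import Vale.Agent.P242X.P242.H71.Final
import Vale.Agent.P242X.Glue

/-!
# P242X: the theorem of Ambrosio, Gigli and Savare, and the charts under both forms of `RCD`
-/

open MeasureTheory Set Filter Topology unitInterval Vale.Agent.P242.H719 Vale.Agent.P242W
open scoped ENNReal NNReal MeasureTheory

universe u

namespace Vale.Agent.P242X

theorem final (X : Type u) [MetricSpace X] [CompleteSpace X] [TopologicalSpace.SeparableSpace X]
    [MeasurableSpace X] [BorelSpace X] [MeasurableSpace C(I, X)] [BorelSpace C(I, X)] :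
    (∀ γ : C(I, X), IsAC 1 γ → ∀ᵐ t, speed γ t < ∞ ∧
      Tendsto (fun s => edist (γ s) (γ t) / edist s t) (𝓝[≠] t) (𝓝 (speed γ t))) ∧
    ∀ U ∈ ({IsWeakUG, IsIntUG, IsNewtonUG} : Set (Measure X → (X → ℝ) → (X → ℝ) → Prop)),
      (∀ m : Measure X, (∀ B, Bornology.IsBounded B → m B < ∞) → ∀ f G,
        (U m f G ↔ P233.T.IsRelaxedSlope m f G) ∧
        (U m f G → ∃ S, IsMin U m f S ∧ P233.T.IsMinSlope m f S ∧
          (∀ S', IsMin U m f S' → S' =ᵐ[m] S) ∧ Ch U m f = 2⁻¹ * ∫⁻ x, ‖S x‖ₑ ^ 2 ∂m)) ∧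
      ∀ n : ℕ, 2 ≤ n → ∀ (K : ℝ) (c : ℝ≥0), c ≠ 0 →
        IsRCD U (c • μH[(n : ℝ)]) K n ∨ IsRCDs U (c • μH[(n : ℝ)]) K n →
        ∀ p : X, IsRegular n p → ∃ V : Set X, IsOpen V ∧ p ∈ V ∧ BiLipChart n 2 V := by
  have := UniformSpace.secondCountable_of_separable X
  refine ⟨fun γ hγ => (P242W47.spl γ hγ).1, fun U hU =>
    ⟨ags X U hU, fun n hn K c hc h p hp => ?_⟩⟩
  obtain ⟨h1, h2⟩ := unscale hc (fun hm f G => (ags X U hU _ hm f G).1)
    (by exact_mod_cast (show 1 < n by omega)) h p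
  exact P242.H71.final n hn X K h1 ⟨h2.ne, h2.fin, h2.cd, h2.quadratic⟩ p hp

end Vale.Agent.P242X
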