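import Vale.Agent.P233Z.Defs

/-!
# `RCD(K,N)` with relaxed slopes and the weak form of `CD*(K,N)`
-/

open MeasureTheory
open scoped ENNReal

universe u

namespace Vale.Agent.P242X

open Vale.Agent.P233

/-- `RCD(K,N)` with the weak form of `CD*(K,N)`. -/
structure IsRCDb {M : Type u} [MetricSpace M] [MeasurableSpace M] (m : Measure M) (K N : ℝ) :
    Prop where
  ne : Nonempty M
  fin : ∀ (x : M) (r : ℝ), m (Metric.ball x r) < ∞
  cd : P233Z.IsCDb K N m
  quadratic : ∀ f g, (T.sob m).W f → (T.sob m).W g →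
    ∫ x, T.slope m (fun y => f y + g y) x ^ 2 + T.slope m (fun y => f y - g y) x ^ 2 ∂m
      = ∫ x, 2 * T.slope m f x ^ 2 + 2 * T.slope m g x ^ 2 ∂m

end Vale.Agent.P242X
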