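import Vale.Agent.P233Z.BBM
import Vale.Agent.P233.H866.CDVol

/-!
# Volume estimates from the weak form of `CD(K,n)` (copy of the first part of `P233Z/BVol.lean`)
-/

set_option linter.all false

open MeasureTheory Set Metric Filter Topology
open scoped ENNReal NNReal MeasureTheory

universe u

namespace Vale.Agent.P242X

open Vale.Agent.P233Z

section

open Vale.Agent.P242 Vale.Agent.P242.H124 Vale.Agent.P233.H939.BM Vale.Agent.P233.H866.CDVol

variable {M : Type u} [MetricSpace M] [CompleteSpace M] [SecondCountableTopology M]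
  [MeasurableSpace M] [BorelSpace M]

theorem contr_of_bmi {m : Measure M} {K N Q : ℝ} (hfin : ∀ (x : M) (r : ℝ), m (ball x r) < ∞)
    (hpos : ∀ (x : M) (r : ℝ), 0 < r → 0 < m (ball x r)) (h : BMI m K N) (hN : 1 < N)
    (hQ0 : 0 < Q) (hQ : Q < 1) : ∃ R₀ : ℝ, 0 < R₀ ∧ Contr m N Q R₀ := by
  obtain ⟨θ₀, hθ₀, hτ⟩ := sigma_pow_lower (K := K) hN hQ0 hQ
  have hN0 : 0 < N := by linarith only [hN]
  refine ⟨θ₀ / 2, by positivity, fun x R κ t hR hRR hκ hκR ht0 ht1 A hA hAsub => ?_⟩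
  have h1 : ENNReal.ofReal (Q * t ^ N) * m A ≤ m (midSet (ball x κ) A t κ) := by
    by_cases hA0 : m A = 0
    · rw [hA0, mul_zero]
      exact zero_le
    have h2 := h measurableSet_ball hA (x := x) (R := max κ R)
      (ball_subset_ball (le_max_left _ _)) (hAsub.trans (ball_subset_ball (le_max_right _ _)))
      (hpos x κ hκ).ne' hA0 (hfin x κ).ne ((measure_mono hAsub).trans_lt (hfin x R)).ne ht0 ht1 hκ
      (c₀ := 0) (c₁ := ENNReal.ofReal (Q * t ^ N) ^ (1 / N)) (fun _ _ _ _ => zero_le) (by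
        intro y hy z hz
        have h3 := hAsub hz
        rw [mem_ball] at hy h3
        have h4 := dist_triangle_right y z x
        have h5 := hτ (dist y z) dist_nonneg (by linarith) t ht0 ht1.le
        have h6 := ENNReal.rpow_le_rpow h5 (z := 1 / N) (by positivity)
        rwa [← ENNReal.rpow_mul, mul_one_div_cancel hN0.ne', ENNReal.rpow_one] at h6)
    rw [zero_mul, zero_add, ← ENNReal.mul_rpow_of_nonneg _ _ (by positivity)] at h2
    have h6 := ENNReal.rpow_le_rpow h2 hN0.le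
    rwa [← ENNReal.rpow_mul, ← ENNReal.rpow_mul, one_div_mul_cancel hN0.ne', ENNReal.rpow_one,
      ENNReal.rpow_one] at h6
  have htop : m (midSet (ball x κ) A t κ) ≠ ∞ :=
    ((measure_mono (midSet_subset ht0 ht1 hκ hAsub)).trans_lt (hfin _ _)).ne
  have h2 := ENNReal.toReal_mono htop h1
  rwa [ENNReal.toReal_mul, ENNReal.toReal_ofReal (by positivity)] at h2

theorem mids_of_bmi {m : Measure M} {K N : ℝ} (hfin : ∀ (x : M) (r : ℝ), m (ball x r) < ∞)
    (hpos : ∀ (x : M) (r : ℝ), 0 < r → 0 < m (ball x r)) (h : BMI m K N) (hN : 1 < N) :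
    Mids M := by
  intro x y κ hκ
  apply mid_of_midSet hκ
  have hN0 : 0 < N := by linarith only [hN]
  have hκ3 : 0 < κ / 3 := by positivity
  set c : ℝ := (1 / 2) ^ N * Real.exp (-(|K| * (dist x y + κ) ^ 2)) with hc
  have hc0 : 0 < c := by positivity
  have h2 := h (A₀ := ball x (κ / 3)) (A₁ := ball y (κ / 3)) measurableSet_ball measurableSet_ball
    (x := x) (R := dist y x + κ / 3)
    (ball_subset_ball (by linarith [dist_nonneg (x := y) (y := x)]))
    (ball_subset_ball' (by linarith))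
    (hpos x _ hκ3).ne' (hpos y _ hκ3).ne' (hfin _ _).ne (hfin _ _).ne (t := 1 / 2) (by norm_num)
    (by norm_num) hκ3 (c₀ := 0) (c₁ := ENNReal.ofReal c ^ (1 / N)) (fun _ _ _ _ => zero_le) (by
      intro z hz w hw
      rw [mem_ball] at hz hw
      have h3 := dist_triangle4 z x y w
      rw [dist_comm y w] at h3
      have h4 : dist z w ^ 2 ≤ (dist x y + κ) ^ 2 :=
        pow_le_pow_left₀ dist_nonneg (by linarith) 2
      have h5 : ENNReal.ofReal c ≤ sigmaCoeff K N (1 / 2) (dist z w) ^ N := by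
        refine le_trans (ENNReal.ofReal_le_ofReal ?_)
          (sigma_pow_ge (K := K) hN (by norm_num) (by norm_num) dist_nonneg)
        refine mul_le_mul_of_nonneg_left (Real.exp_le_exp.2 ?_) (by positivity)
        have h6 : -|K| * dist z w ^ 2 ≤ K * dist z w ^ 2 :=
          mul_le_mul_of_nonneg_right (neg_abs_le K) (by positivity)
        have h7 : |K| * dist z w ^ 2 ≤ |K| * (dist x y + κ) ^ 2 :=
          mul_le_mul_of_nonneg_left h4 (abs_nonneg K)
        have h8 : 0 ≤ |K| * dist z w ^ 2 := by positivity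
        linarith
      have h6 := ENNReal.rpow_le_rpow h5 (z := 1 / N) (by positivity)
      rwa [← ENNReal.rpow_mul, mul_one_div_cancel hN0.ne', ENNReal.rpow_one] at h6)
  rw [zero_mul, zero_add] at h2
  by_contra hne
  rw [not_nonempty_iff_eq_empty] at hne
  rw [hne, measure_empty, ENNReal.zero_rpow_of_pos (by positivity), nonpos_iff_eq_zero,
    mul_eq_zero] at h2
  rcases h2 with h2 | h2
  · exact (ENNReal.rpow_pos_of_nonneg (ENNReal.ofReal_pos.2 hc0) (by positivity)).ne' h2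
  · exact (ENNReal.rpow_pos_of_nonneg (hpos y _ hκ3) (by positivity)).ne' h2

/-- the hypotheses hold on a `CD(K,n)` space with its Hausdorff measure -/
theorem hyp_of_bmi {n : ℕ} {K : ℝ} (hn : 2 ≤ n)
    (full : (μH[(n : ℝ)] : Measure M).IsOpenPosMeasure)
    (fin : ∀ (x : M) (r : ℝ), (μH[(n : ℝ)] : Measure M) (ball x r) < ∞)
    (cd : BMI (μH[(n : ℝ)] : Measure M) K n) : Hyp (μH[(n : ℝ)] : Measure M) n := by
  have hpos : ∀ (x : M) (r : ℝ), 0 < r → 0 < (μH[(n : ℝ)] : Measure M) (ball x r) :=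
    fun x r hr => isOpen_ball.measure_pos _ ⟨x, mem_ball_self hr⟩
  have hN : (1 : ℝ) < n := by exact_mod_cast (show 1 < n by omega)
  have hc : ∀ Q : ℝ, 0 < Q → Q < 1 → ∃ R₀ : ℝ, 0 < R₀ ∧
      Contr (μH[(n : ℝ)] : Measure M) n Q R₀ := fun Q hQ0 hQ1 =>
    contr_of_bmi fin hpos cd hN hQ0 hQ1
  refine hyp_of_contr fin hpos (mids_of_bmi fin hpos cd hN) hc ?_
  obtain ⟨R₀, hR₀, h⟩ := hc (1 / 2) (by norm_num) (by norm_num)
  refine ⟨16 ^ n / (1 / 2) ^ 2, R₀ / 2, by positivity, by positivity, fun x r hr hrR => ?_⟩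
  exact hausdorff_upper h fin hpos (by norm_num) (by norm_num) x hr (by linarith)

/-- All volume and topology fields, from the curvature-dimension condition. -/
theorem vol_of_bmi {n : ℕ} {K : ℝ} (hn : 2 ≤ n)
    (full : (μH[(n : ℝ)] : Measure M).IsOpenPosMeasure)
    (fin : ∀ (x : M) (r : ℝ), (μH[(n : ℝ)] : Measure M) (ball x r) < ∞)
    (cd : BMI (μH[(n : ℝ)] : Measure M) K n) :
    ProperSpace M ∧
    (∀ x y : M, ∀ s t : ℝ, 0 ≤ s → 0 ≤ t → s + t = dist x y → ∃ w, dist x w = s ∧ dist w y = t) ∧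
    (∀ x₀ : M, ∃ c : ℝ, ∀ r > 0,
      (μH[(n : ℝ)] : Measure M) (ball x₀ r) ≤ ENNReal.ofReal (c * Real.exp (c * r))) ∧
    (∃ R₁ : ℝ, 0 < R₁ ∧ ∀ (p : M) (r t : ℝ), 0 < r → r ≤ R₁ → 0 < t → t ≤ 1 →
      (μH[(n : ℝ)] : Measure M) (ball p r) ≤
        ENNReal.ofReal ((2 / t) ^ n) * (μH[(n : ℝ)] : Measure M) (ball p (t * r))) ∧
    ∃ θ : M → ℝ, Measurable θ ∧
      (∀ (x₀ : M) (R : ℝ), ∃ c : ℝ, 0 < c ∧ ∀ x ∈ ball x₀ R, c ≤ θ x ∧ θ x ≤ c⁻¹) ∧
      ∀ x, Tendsto (fun r : ℝ => ((μH[(n : ℝ)] : Measure M) (ball x r)).toReal / r ^ n) (𝓝[>] 0)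
        (𝓝 (θ x)) := by
  have h := hyp_of_bmi hn full fin cd
  have hP := h.proper
  have hloc : IsLocallyFiniteMeasure (μH[(n : ℝ)] : Measure M) :=
    ⟨fun x => ⟨ball x 1, ball_mem_nhds x one_pos, fin x 1⟩⟩
  refine ⟨hP, geo_of h.mids, h.growth, ?_, h.th, h.measurable_th, h.th_bd, h.tendsto_th⟩
  obtain ⟨R₀, hR₀, hc⟩ := h.contr (1 / 2) (by norm_num) (by norm_num)
  refine ⟨R₀, hR₀, fun p r t hr hrR ht ht1 => ?_⟩
  have h1 := hc p (t * r) r (by positivity) (by nlinarith) hrR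
  have h2 : t * r / r = t := by field_simp
  rw [h2] at h1
  rw [← ofReal_measureReal (fin p r).ne, ← ofReal_measureReal (fin p (t * r)).ne,
    ← ENNReal.ofReal_mul (by positivity)]
  refine ENNReal.ofReal_le_ofReal ?_
  have h3 : (2 : ℝ) ≤ 2 ^ n := by
    calc (2 : ℝ) = 2 ^ 1 := by norm_num
      _ ≤ 2 ^ n := pow_le_pow_right₀ (by norm_num) (by omega)
  have h4 : 0 < t ^ n := by positivity
  have h5 : (2 / t) ^ n * (μH[(n : ℝ)] : Measure M).real (ball p (t * r)) =
      2 ^ n * (μH[(n : ℝ)] : Measure M).real (ball p (t * r)) / t ^ n := by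
    rw [div_pow]; ring
  rw [h5, le_div_iff₀ h4]
  have h6 : 0 ≤ (μH[(n : ℝ)] : Measure M).real (ball p (t * r)) := measureReal_nonneg
  nlinarith only [h1, h3, h6]

end

theorem bmi {M : Type u} [MetricSpace M] [CompleteSpace M] [SecondCountableTopology M]
    [MeasurableSpace M] [BorelSpace M] {m : Measure M} {n : ℕ} {K : ℝ} (hn : 2 ≤ n)
    (fin : ∀ (x : M) (r : ℝ), m (ball x r) < ∞) (cd : IsCDb K n m) : BMI m K n := by
  have : IsLocallyFiniteMeasure m := ⟨fun x => ⟨ball x 1, ball_mem_nhds x one_pos, fin x 1⟩⟩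
  exact bmi_of cd (by exact_mod_cast (show 1 < n by omega))

end Vale.Agent.P242X
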